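import Crest.Agent.N250.H.Hol

/-!
Row 250, helper75.  Fixed points of uniform contractions depend holomorphically on parameters;
holomorphy of `C(K, Y)`-valued and `ℓ¹`-valued maps.
-/

set_option autoImplicit false
set_option linter.unusedSectionVars false

open Metric Set Filter Topology Complex

noncomputable section

namespace Crest.Agent.N250.H

variable {E X : Type*} [NormedAddCommGroup E] [NormedSpace ℂ E] [NormedAddCommGroup X]
  [NormedSpace ℂ X]

section Fix

/-- `T` maps the closed set `B` into itself and is a `k`-contraction there -/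
structure Ctr (T : X → X) (B : Set X) (k : ℝ) : Prop where
  maps : MapsTo T B B
  lip : ∀ x ∈ B, ∀ y ∈ B, ‖T x - T y‖ ≤ k * ‖x - y‖

lemma Ctr.uniq {T : X → X} {B : Set X} {k : ℝ} (h : Ctr T B k) (hk : k < 1) {x y : X}
    (hx : x ∈ B) (hy : y ∈ B) (ex : T x = x) (ey : T y = y) : x = y := by
  have := h.lip x hx y hy
  rw [ex, ey] at this
  have h0 := norm_nonneg (x - y)
  have : ‖x - y‖ ≤ 0 := by nlinarith
  exact sub_eq_zero.1 (norm_le_zero_iff.1 this)

/-- a posteriori estimate: distance of any point of `B` to the fixed point -/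
lemma Ctr.dist_le {T : X → X} {B : Set X} {k : ℝ} (h : Ctr T B k) (hk : k < 1) {x y : X}
    (hx : x ∈ B) (hy : y ∈ B) (ex : T x = x) : ‖x - y‖ ≤ ‖T y - y‖ / (1 - k) := by
  have h1 := h.lip x hx y hy
  rw [ex] at h1
  have h2 : ‖x - y‖ ≤ ‖x - T y‖ + ‖T y - y‖ := by
    simpa [dist_eq_norm] using dist_triangle x (T y) y
  rw [le_div_iff₀ (by linarith)]
  nlinarith

lemma Ctr.iter_mem {T : X → X} {B : Set X} {k : ℝ} (h : Ctr T B k) {x : X} (hx : x ∈ B) (n : ℕ) :
    T^[n] x ∈ B := h.maps.iterate n hx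

lemma Ctr.iter_le {T : X → X} {B : Set X} {k : ℝ} (h : Ctr T B k) (hk0 : 0 ≤ k) {x y : X}
    (hx : x ∈ B) (hy : y ∈ B) (n : ℕ) : ‖T^[n] x - T^[n] y‖ ≤ k ^ n * ‖x - y‖ := by
  induction n with
  | zero => simp
  | succ n ih =>
    rw [Function.iterate_succ_apply', Function.iterate_succ_apply', pow_succ']
    refine (h.lip _ (h.iter_mem hx n) _ (h.iter_mem hy n)).trans ?_
    rw [mul_assoc]
    gcongr

lemma Ctr.exists_fix [CompleteSpace X] {T : X → X} {B : Set X} {k : ℝ} (h : Ctr T B k)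
    (hB : IsClosed B) (hk0 : 0 ≤ k) (hk : k < 1) (hne : B.Nonempty) : ∃ x ∈ B, T x = x := by
  obtain ⟨x0, hx0⟩ := hne
  have hc : CauchySeq fun n => T^[n] x0 := by
    refine cauchySeq_of_le_geometric k ‖x0 - T x0‖ hk (fun n => ?_)
    rw [dist_eq_norm, Function.iterate_succ_apply, mul_comm]
    exact h.iter_le hk0 hx0 (h.maps hx0) n
  obtain ⟨x, hx⟩ := cauchySeq_tendsto_of_complete hc
  have hxB : x ∈ B := hB.mem_of_tendsto hx (Eventually.of_forall (h.iter_mem hx0))
  refine ⟨x, hxB, ?_⟩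
  have a1 : Tendsto (fun n => T^[n + 1] x0) atTop (𝓝 x) := hx.comp (tendsto_add_atTop_nat 1)
  have a2 : Tendsto (fun n => T^[n + 1] x0) atTop (𝓝 (T x)) := by
    rw [tendsto_iff_norm_sub_tendsto_zero]
    refine squeeze_zero (fun _ => norm_nonneg _) (g := fun n => k * ‖T^[n] x0 - x‖)
      (fun n => ?_) ?_
    · rw [Function.iterate_succ_apply']
      exact h.lip _ (h.iter_mem hx0 n) _ hxB
    · simpa using (tendsto_iff_norm_sub_tendsto_zero.1 hx).const_mul k
  exact tendsto_nhds_unique a2 a1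

/-- **holomorphic dependence of the fixed point**, abstract form: it is enough that the map
`z ↦ T z (g z)` is holomorphic whenever `g` is holomorphic with values in `B` -/
theorem fix_diffOn [CompleteSpace X] {T : E → X → X} {B : E → Set X} {k M : ℝ} {U : Set E}
    (hU : IsOpen U) (hk0 : 0 ≤ k) (hk : k < 1) (hT : ∀ z ∈ U, Ctr (T z) (B z) k)
    (hM : ∀ z ∈ U, ∀ x ∈ B z, ‖x‖ ≤ M)
    (hd : ∀ g : E → X, DifferentiableOn ℂ g U → (∀ z ∈ U, g z ∈ B z) →
      DifferentiableOn ℂ (fun z => T z (g z)) U)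
    {g0 : E → X} (hg0 : DifferentiableOn ℂ g0 U) (hg0B : ∀ z ∈ U, g0 z ∈ B z)
    {x : E → X} (hx : ∀ z ∈ U, x z ∈ B z ∧ T z (x z) = x z) : DifferentiableOn ℂ x U := by
  have hit : ∀ n : ℕ, DifferentiableOn ℂ (fun z => (T z)^[n] (g0 z)) U := by
    intro n
    induction n with
    | zero => simpa using hg0
    | succ n ih =>
      simp only [Function.iterate_succ_apply']
      exact hd _ ih (fun z hz => (hT z hz).iter_mem (hg0B z hz) n)
  refine diffOn_of_lim (l := atTop) (M := M) hU (Eventually.of_forall fun n =>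
    ⟨hit n, fun z hz => hM z hz _ ((hT z hz).iter_mem (hg0B z hz) n)⟩) ?_
  rw [Metric.tendstoUniformlyOn_iff]
  intro ε hε
  have : Tendsto (fun n : ℕ => k ^ n * (2 * M)) atTop (𝓝 0) := by
    simpa using (tendsto_pow_atTop_nhds_zero_of_lt_one hk0 hk).mul_const (2 * M)
  filter_upwards [this.eventually (gt_mem_nhds hε)] with n hn z hz
  have h1 := (hT z hz).iter_le hk0 (hx z hz).1 (hg0B z hz) n
  rw [Function.iterate_fixed (hx z hz).2] at h1
  rw [dist_eq_norm]
  refine (h1.trans ?_).trans_lt hn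
  have := norm_sub_le (x z) (g0 z)
  have := hM z hz _ (hx z hz).1
  have := hM z hz _ (hg0B z hz)
  gcongr
  linarith

/-- existence + holomorphy, for a jointly holomorphic `T` and a fixed closed ball -/
theorem exists_fix_hol [CompleteSpace X] {T : E → X → X} {k ρ : ℝ} {x0 : X} {U : Set E}
    {V : Set (E × X)} (hU : IsOpen U) (hk0 : 0 ≤ k) (hk : k < 1) (hρ : 0 ≤ ρ)
    (hT : ∀ z ∈ U, Ctr (T z) (closedBall x0 ρ) k)
    (hV : ∀ z ∈ U, ∀ x ∈ closedBall x0 ρ, (z, x) ∈ V)
    (hd : DifferentiableOn ℂ (fun p : E × X => T p.1 p.2) V) :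
    ∃ x : E → X, DifferentiableOn ℂ x U ∧
      ∀ z ∈ U, x z ∈ closedBall x0 ρ ∧ T z (x z) = x z := by
  have : ∀ z, ∃ x : X, z ∈ U → x ∈ closedBall x0 ρ ∧ T z x = x := by
    intro z
    by_cases hz : z ∈ U
    · obtain ⟨x, hx⟩ := (hT z hz).exists_fix isClosed_closedBall hk0 hk
        ⟨x0, mem_closedBall_self hρ⟩
      exact ⟨x, fun _ => hx⟩
    · exact ⟨x0, fun h => (hz h).elim⟩
  choose x hx using this
  refine ⟨x, fix_diffOn (B := fun _ => closedBall x0 ρ) (M := ‖x0‖ + ρ) hU hk0 hk hT ?_ ?_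
    (g0 := fun _ => x0) (differentiableOn_const _) (fun _ _ => mem_closedBall_self hρ) hx, hx⟩
  · intro z _ y hy
    have := norm_le_norm_add_norm_sub' y x0
    rw [mem_closedBall, dist_eq_norm] at hy
    linarith
  · intro g hg hgB
    exact hd.comp (f := fun z => (z, g z)) (differentiableOn_id.prodMk hg)
      (fun z hz => hV z hz _ (hgB z hz))

/-- a holomorphic map which is small on a ball is a contraction on a smaller one -/
theorem ctr_of_small {T : X → X} {x0 : X} {ρ r ε : ℝ} (hr : 0 < r)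
    (hd : DifferentiableOn ℂ T (ball x0 (ρ + r)))
    (hb : ∀ x ∈ ball x0 (ρ + r), ‖T x - x0‖ ≤ ε) (hε : ε ≤ ρ) :
    Ctr T (closedBall x0 ρ) (2 * ε / r) := by
  have hs : ∀ x ∈ closedBall x0 ρ, ball x r ⊆ ball x0 (ρ + r) := fun x hx =>
    ball_subset_ball' (by rw [mem_closedBall] at hx; linarith)
  refine ⟨fun x hx => ?_, fun x hx y hy => ?_⟩
  · rw [mem_closedBall, dist_eq_norm]
    exact (hb x (hs x hx (mem_ball_self hr))).trans hε
  · have h1 : ∀ w ∈ closedBall x0 ρ, DifferentiableAt ℂ T w := fun w hw =>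
      (hd w (hs w hw (mem_ball_self hr))).differentiableAt
        (isOpen_ball.mem_nhds (hs w hw (mem_ball_self hr)))
    refine (convex_closedBall x0 ρ).norm_image_sub_le_of_norm_fderiv_le (𝕜 := ℂ) h1
      (fun w hw => ?_) hy hx
    have := fd_le (f := fun v => T v - x0) hr ((hd.mono (hs w hw)).sub_const _)
      (fun v hv => hb v (hs w hw hv))
    rwa [fderiv_sub_const] at this

end Fix

section Spaces

variable {Y : Type*} [NormedAddCommGroup Y] [NormedSpace ℂ Y] [CompleteSpace Y]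

/-- `C(K, Y)`-valued maps: bounded and pointwise holomorphic -/
theorem diffOn_cm {K : Type*} [TopologicalSpace K] [CompactSpace K] {f : E → C(K, Y)}
    {U : Set E} (hU : IsOpen U) {M : ℝ} (hM : ∀ z ∈ U, ‖f z‖ ≤ M)
    (hd : ∀ s, DifferentiableOn ℂ (fun z => f z s) U) : DifferentiableOn ℂ f U :=
  diffOn_of_norming (Y := fun _ : K => Y) (fun s => ContinuousMap.evalCLM ℂ s)
    (fun s v => v.norm_coe_le_norm s) (fun v _ hc h => (v.norm_le hc).2 h) hU hM hd

/-- bounded continuous functions -/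
theorem diffOn_bcf {K : Type*} [TopologicalSpace K] {f : E → BoundedContinuousFunction K Y}
    {U : Set E} (hU : IsOpen U) {M : ℝ} (hM : ∀ z ∈ U, ‖f z‖ ≤ M)
    (hd : ∀ s, DifferentiableOn ℂ (fun z => f z s) U) : DifferentiableOn ℂ f U :=
  diffOn_of_norming (Y := fun _ : K => Y) (fun s => BoundedContinuousFunction.evalCLM ℂ s)
    (fun s v => v.norm_coe_le_norm s)
    (fun v _ hc h => (BoundedContinuousFunction.norm_le hc).2 h) hU hM hd

/-- operator valued maps: bounded and strongly holomorphic -/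
theorem diffOn_clm {Z : Type*} [NormedAddCommGroup Z] [NormedSpace ℂ Z] {f : E → Z →L[ℂ] Y}
    {U : Set E} (hU : IsOpen U) {M : ℝ} (hM : ∀ z ∈ U, ‖f z‖ ≤ M)
    (hd : ∀ v, DifferentiableOn ℂ (fun z => f z v) U) : DifferentiableOn ℂ f U :=
  diffOn_of_norming (ι := {h : Z // ‖h‖ ≤ 1}) (Y := fun _ => Y)
    (fun h => ContinuousLinearMap.apply ℂ Y h.1)
    (fun h v => (v.le_opNorm h.1).trans (by have := h.2; have := norm_nonneg v; nlinarith))
    (fun v _ hc h => ContinuousLinearMap.opNorm_le_of_unit_norm hc (fun x hx => h ⟨x, hx.le⟩))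
    hU hM (fun h => hd h.1)

/-- a Banach space `X` with continuous linear "truncations" `P i` (`‖P i v‖ ≤ ‖v‖`,
`P i v → v`): holomorphy can be tested on the truncations -/
theorem diffOn_of_trunc [CompleteSpace X] {ι : Type*} {l : Filter ι} [l.NeBot]
    (P : ι → X →L[ℂ] X) (h1 : ∀ i v, ‖P i v‖ ≤ ‖v‖) (hl : ∀ v, Tendsto (fun i => P i v) l (𝓝 v))
    {f : E → X} {U : Set E} (hU : IsOpen U) {M : ℝ} (hM : ∀ z ∈ U, ‖f z‖ ≤ M)
    (hd : ∀ i, DifferentiableOn ℂ (fun z => P i (f z)) U) : DifferentiableOn ℂ f U :=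
  diffOn_of_norming (Y := fun _ : ι => X) P h1
    (fun v _ _ h => le_of_tendsto (hl v).norm (Eventually.of_forall h)) hU hM hd

/-- `ℓ¹`-valued maps: bounded and coordinatewise holomorphic -/
theorem diffOn_l1 {α : Type*} {G : α → Type*} [∀ i, NormedAddCommGroup (G i)]
    [∀ i, NormedSpace ℂ (G i)] [∀ i, CompleteSpace (G i)] {f : E → lp G 1}
    {U : Set E} (hU : IsOpen U) {M : ℝ} (hM : ∀ z ∈ U, ‖f z‖ ≤ M)
    (hd : ∀ i, DifferentiableOn ℂ (fun z => f z i) U) : DifferentiableOn ℂ f U := by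
  classical
  let P : Finset α → lp G 1 →L[ℂ] lp G 1 := fun s =>
    ∑ i ∈ s, (lp.singleContinuousLinearMap ℂ G 1 i).comp (lp.evalCLM ℂ G 1 i)
  have hP : ∀ s v, P s v = ∑ i ∈ s, lp.single 1 i (v i) := fun s v => by
    simp only [P, sum_apply]
    rfl
  refine diffOn_of_trunc (l := atTop) P (fun s v => ?_) (fun v => ?_) hU hM (fun s => ?_)
  · rw [hP]
    refine (norm_sum_le _ _).trans ?_
    have := lp.sum_rpow_le_norm_rpow (p := 1) (by simp) v s
    simpa [lp.norm_single] using this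
  · simp only [hP]
    exact lp.hasSum_single (by simp) v
  · simp only [hP]
    exact DifferentiableOn.fun_sum (fun i _ =>
      (lp.singleContinuousLinearMap ℂ G 1 i).differentiable.comp_differentiableOn (hd i))

end Spaces

end Crest.Agent.N250.H
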