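import Crest.Agent.N250.H.Hol

/-!
Row 250, helper76.  Holomorphic dependence of dominated integrals on a Banach parameter
(no separability, no measurability of the derivative is assumed).
-/

set_option autoImplicit false
set_option linter.unusedSectionVars false

open Metric Set Filter Topology MeasureTheory

noncomputable section

namespace Crest.Agent.N250.H

variable {E Y α : Type*} [NormedAddCommGroup E] [NormedSpace ℂ E] [NormedAddCommGroup Y]
  [NormedSpace ℂ Y] [MeasurableSpace α] {μ : Measure α}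

/-- dominated holomorphic family on a ball -/
structure DomH (μ : Measure α) (F : E → α → Y) (c : E) (r : ℝ) (g : α → ℝ) : Prop where
  pos : 0 < r
  meas : ∀ z ∈ ball c r, AEStronglyMeasurable (F z) μ
  int : Integrable g μ
  hol : ∀ᵐ p ∂μ, DifferentiableOn ℂ (fun z => F z p) (ball c r)
  bd : ∀ᵐ p ∂μ, ∀ z ∈ ball c r, ‖F z p‖ ≤ g p

namespace DomH

variable {F : E → α → Y} {c : E} {r : ℝ} {g : α → ℝ}

theorem integrable (h : DomH μ F c r g) {z : E} (hz : z ∈ ball c r) : Integrable (F z) μ :=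
  h.int.mono' (h.meas z hz) (h.bd.mono fun _ hp => hp z hz)

theorem mono (h : DomH μ F c r g) {c' : E} {r' : ℝ} (hr : 0 < r') (hs : ball c' r' ⊆ ball c r) :
    DomH μ F c' r' g :=
  ⟨hr, fun z hz => h.meas z (hs hz), h.int, h.hol.mono fun _ hp => hp.mono hs,
    h.bd.mono fun _ hp z hz => hp z (hs hz)⟩

theorem meas_fd (h : DomH μ F c r g) (v : E) :
    AEStronglyMeasurable (fun p => fderiv ℂ (fun z => F z p) c v) μ := by
  have ht : Tendsto (fun n : ℕ => ((n : ℂ) + 1)⁻¹) atTop (𝓝[≠] 0) := by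
    refine tendsto_nhdsWithin_iff.2 ⟨?_, Eventually.of_forall fun n => ?_⟩
    · have := (Complex.continuous_ofReal.tendsto 0).comp
        (tendsto_one_div_add_atTop_nhds_zero_nat (𝕜 := ℝ))
      refine this.congr fun n => ?_
      simp
    · exact inv_ne_zero (by exact_mod_cast Nat.succ_ne_zero n)
  have hc : Tendsto (fun n : ℕ => c + ((n : ℂ) + 1)⁻¹ • v) atTop (𝓝 c) := by
    have := ((ht.mono_right nhdsWithin_le_nhds).smul_const v).const_add c
    simpa using this
  obtain ⟨N, hN⟩ := eventually_atTop.1 (hc.eventually (ball_mem_nhds c h.pos))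
  refine aestronglyMeasurable_of_tendsto_ae (u := atTop)
    (f := fun n p => (((n + N : ℕ) : ℂ) + 1) • (F (c + (((n + N : ℕ) : ℂ) + 1)⁻¹ • v) p - F c p))
    (fun n => ((h.meas _ (hN _ (Nat.le_add_left _ _))).sub
      (h.meas c (mem_ball_self h.pos))).const_smul _) (h.hol.mono fun p hp => ?_)
  have h1 := (hp.differentiableAt (ball_mem_nhds c h.pos)).hasFDerivAt
  have h2 : HasDerivAt (fun t : ℂ => F (c + t • v) p) (fderiv ℂ (fun z => F z p) c v) 0 := by
    have h3 : HasDerivAt (fun t : ℂ => c + t • v) v 0 := by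
      simpa using ((hasDerivAt_id (0 : ℂ)).smul_const v).const_add c
    exact HasFDerivAt.comp_hasDerivAt_of_eq 0 h1 h3 (by simp)
  have h4 := (hasDerivAt_iff_tendsto_slope_zero.1 h2).comp (ht.comp (tendsto_add_atTop_nat N))
  refine h4.congr fun n => ?_
  simp

theorem fd_bd (h : DomH μ F c r g) : ∀ᵐ p ∂μ, ‖fderiv ℂ (fun z => F z p) c‖ ≤ 2 * g p / r := by
  filter_upwards [h.hol, h.bd] with p h1 h2 using fd_le h.pos h1 h2

theorem int_fd (h : DomH μ F c r g) (v : E) :
    Integrable (fun p => fderiv ℂ (fun z => F z p) c v) μ :=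
  (((h.int.const_mul 2).div_const r).mul_const ‖v‖).mono' (h.meas_fd v) (h.fd_bd.mono fun _ hp =>
    (ContinuousLinearMap.le_opNorm _ v).trans (mul_le_mul_of_nonneg_right hp (norm_nonneg v)))

/-- the derivative of the integral -/
def D (h : DomH μ F c r g) : E →L[ℂ] Y :=
  LinearMap.mkContinuous
    { toFun := fun v => ∫ p, fderiv ℂ (fun z => F z p) c v ∂μ
      map_add' := fun v w => by
        simp only [map_add]; exact integral_add (h.int_fd v) (h.int_fd w)
      map_smul' := fun a v => by simp only [map_smul, RingHom.id_apply, integral_smul] }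
    (∫ p, 2 * g p / r ∂μ) fun v => by
      rw [← integral_mul_const]
      exact norm_integral_le_of_norm_le (((h.int.const_mul 2).div_const r).mul_const ‖v‖)
        (h.fd_bd.mono fun _ hp => (ContinuousLinearMap.le_opNorm _ v).trans
          (mul_le_mul_of_nonneg_right hp (norm_nonneg v)))

theorem D_apply (h : DomH μ F c r g) (v : E) :
    h.D v = ∫ p, fderiv ℂ (fun z => F z p) c v ∂μ := rfl

theorem hasFDerivAt (h : DomH μ F c r g) : HasFDerivAt (fun z => ∫ p, F z p ∂μ) h.D c := by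
  refine hasFD_of_sq (K := ∫ p, 4 * g p / r ^ 2 ∂μ) h.pos _ fun z hz => ?_
  rw [D_apply, ← integral_sub (h.integrable hz) (h.integrable (mem_ball_self h.pos)),
    ← integral_sub (f := fun p => F z p - F c p)
      ((h.integrable hz).sub (h.integrable (mem_ball_self h.pos))) (h.int_fd _),
    ← integral_mul_const]
  refine norm_integral_le_of_norm_le (((h.int.const_mul 4).div_const _).mul_const _) ?_
  filter_upwards [h.hol, h.bd] with p h1 h2
  exact (tay2 h1 h2 hz).trans (le_of_eq (by ring))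

theorem fderiv_apply (h : DomH μ F c r g) (v : E) :
    fderiv ℂ (fun z => ∫ p, F z p ∂μ) c v = ∫ p, fderiv ℂ (fun z => F z p) c v ∂μ := by
  rw [h.hasFDerivAt.fderiv, D_apply]

theorem diffOn (h : DomH μ F c r g) : DifferentiableOn ℂ (fun z => ∫ p, F z p ∂μ) (ball c r) := by
  intro z hz
  obtain ⟨s, hs, hb⟩ := Metric.isOpen_iff.1 isOpen_ball z hz
  exact (h.mono hs hb).hasFDerivAt.differentiableAt.differentiableWithinAt

theorem norm_le (h : DomH μ F c r g) {z : E} (hz : z ∈ ball c r) :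
    ‖∫ p, F z p ∂μ‖ ≤ ∫ p, g p ∂μ :=
  norm_integral_le_of_norm_le h.int (h.bd.mono fun _ hp => hp z hz)

end DomH

/-- holomorphy of a dominated integral on an open set -/
theorem int_diffOn {F : E → α → Y} {U : Set E} (hU : IsOpen U) {g : α → ℝ} (hg : Integrable g μ)
    (hm : ∀ z ∈ U, AEStronglyMeasurable (F z) μ)
    (hd : ∀ᵐ p ∂μ, DifferentiableOn ℂ (fun z => F z p) U)
    (hb : ∀ᵐ p ∂μ, ∀ z ∈ U, ‖F z p‖ ≤ g p) : DifferentiableOn ℂ (fun z => ∫ p, F z p ∂μ) U := by
  intro z hz
  obtain ⟨s, hs, hsub⟩ := Metric.isOpen_iff.1 hU z hz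
  exact (DomH.hasFDerivAt ⟨hs, fun z hz => hm z (hsub hz), hg, hd.mono fun _ hp => hp.mono hsub,
    hb.mono fun _ hp z hz => hp z (hsub hz)⟩).differentiableAt.differentiableWithinAt

/-- derivative under the integral sign, with given pointwise derivatives -/
theorem int_fderiv {F : E → α → Y} {U : Set E} (hU : IsOpen U) {g : α → ℝ} (hg : Integrable g μ)
    (hm : ∀ z ∈ U, AEStronglyMeasurable (F z) μ)
    (hd : ∀ᵐ p ∂μ, DifferentiableOn ℂ (fun z => F z p) U)
    (hb : ∀ᵐ p ∂μ, ∀ z ∈ U, ‖F z p‖ ≤ g p) {c : E} (hc : c ∈ U) (v : E) :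
    Integrable (fun p => fderiv ℂ (fun z => F z p) c v) μ ∧
    fderiv ℂ (fun z => ∫ p, F z p ∂μ) c v = ∫ p, fderiv ℂ (fun z => F z p) c v ∂μ := by
  obtain ⟨s, hs, hsub⟩ := Metric.isOpen_iff.1 hU c hc
  have h : DomH μ F c s g := ⟨hs, fun z hz => hm z (hsub hz), hg, hd.mono fun _ hp => hp.mono hsub,
    hb.mono fun _ hp z hz => hp z (hsub hz)⟩
  exact ⟨h.int_fd v, h.fderiv_apply v⟩

end Crest.Agent.N250.H

end
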