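import Mathlib

/-!
Row 250, helper75.  Holomorphy toolbox for maps between complex Banach spaces:
Cauchy estimates, norming families, uniform limits.
-/

set_option autoImplicit false
set_option linter.unusedSectionVars false

open Metric Set Filter Topology Complex

noncomputable section

namespace Crest.Agent.N250.H

variable {E X : Type*} [NormedAddCommGroup E] [NormedSpace ℂ E] [NormedAddCommGroup X]
  [NormedSpace ℂ X]

lemma maps_of_bd {f : E → X} {c : E} {r M : ℝ} (hr : 0 < r) (hM : ∀ z ∈ ball c r, ‖f z‖ ≤ M) :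
    MapsTo f (ball c r) (closedBall (f c) (2 * M)) := by
  intro z hz
  rw [mem_closedBall, dist_eq_norm]
  have := norm_sub_le (f z) (f c)
  linarith [hM z hz, hM c (mem_ball_self hr)]

/-- Cauchy estimate for the Fréchet derivative -/
theorem fd_le {f : E → X} {c : E} {r M : ℝ} (hr : 0 < r) (hd : DifferentiableOn ℂ f (ball c r))
    (hM : ∀ z ∈ ball c r, ‖f z‖ ≤ M) : ‖fderiv ℂ f c‖ ≤ 2 * M / r :=
  norm_fderiv_le_div_of_mapsTo_ball hd (maps_of_bd hr hM) hr

/-- Schwarz: Lipschitz estimate at the centre -/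
theorem lip_le {f : E → X} {c z : E} {r M : ℝ} (hd : DifferentiableOn ℂ f (ball c r))
    (hM : ∀ z ∈ ball c r, ‖f z‖ ≤ M) (hz : z ∈ ball c r) :
    ‖f z - f c‖ ≤ 2 * M / r * ‖z - c‖ := by
  have hr : 0 < r := nonempty_ball.1 ⟨z, hz⟩
  simpa [dist_eq_norm] using dist_le_div_mul_dist_of_mapsTo_ball hd (maps_of_bd hr hM) hz

/-- second order Taylor estimate at the centre -/
theorem tay2 {f : E → X} {c z : E} {r M : ℝ} (hd : DifferentiableOn ℂ f (ball c r))
    (hM : ∀ z ∈ ball c r, ‖f z‖ ≤ M) (hz : z ∈ ball c r) :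
    ‖f z - f c - fderiv ℂ f c (z - c)‖ ≤ 4 * M * (‖z - c‖ / r) ^ 2 := by
  have hr : 0 < r := nonempty_ball.1 ⟨z, hz⟩
  set D := fderiv ℂ f c with hD
  have hDn : ‖D‖ ≤ 2 * M / r := fd_le hr hd hM
  have hM0 : 0 ≤ M := (norm_nonneg _).trans (hM c (mem_ball_self hr))
  have hfd : HasFDerivAt f D c :=
    ((hd c (mem_ball_self hr)).differentiableAt (ball_mem_nhds c hr)).hasFDerivAt
  have h := dist_le_mul_div_pow_of_mapsTo_ball_of_isLittleO (f := fun w => f w - D (w - c))
    (c := c) (z := z) (R₁ := r) (R₂ := 4 * M) (n := 1) (hd.sub (by fun_prop)) ?_ ?_ hz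
  · simp only [dist_eq_norm, sub_self, map_zero, sub_zero] at h
    have e : f z - f c - D (z - c) = f z - D (z - c) - f c := by abel
    rw [e]
    exact h
  · intro w hw
    simp only [mem_closedBall, dist_eq_norm, sub_self, map_zero, sub_zero]
    have h1 := maps_of_bd hr hM hw
    rw [mem_closedBall, dist_eq_norm] at h1
    have h2 : ‖D (w - c)‖ ≤ 2 * M := by
      refine (D.le_opNorm _).trans ?_
      have : ‖w - c‖ ≤ r := by rw [← dist_eq_norm]; exact (mem_ball.1 hw).le
      calc ‖D‖ * ‖w - c‖ ≤ 2 * M / r * r := by gcongr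
        _ = 2 * M := by field_simp
    calc ‖f w - D (w - c) - f c‖ = ‖(f w - f c) - D (w - c)‖ := by congr 1; abel
      _ ≤ _ := norm_sub_le _ _
      _ ≤ _ := by linarith
  · have := hfd.isLittleO
    simp only [sub_self, map_zero, sub_zero, pow_one]
    refine (this.congr_left (fun w => by abel)).norm_right

lemma hasFD_of_sq {f : E → X} {c : E} {r K : ℝ} (hr : 0 < r) (D : E →L[ℂ] X)
    (h : ∀ z ∈ ball c r, ‖f z - f c - D (z - c)‖ ≤ K * ‖z - c‖ ^ 2) : HasFDerivAt f D c := by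
  rw [hasFDerivAt_iff_isLittleO]
  have h1 : (fun z => f z - f c - D (z - c)) =O[𝓝 c] fun z => ‖z - c‖ ^ 2 := by
    refine Asymptotics.IsBigO.of_bound K ?_
    filter_upwards [ball_mem_nhds c hr] with z hz
    simpa using h z hz
  exact h1.trans_isLittleO (Asymptotics.isLittleO_pow_sub_sub c (by norm_num : 1 < 2))

/-- **norming families**: a bounded map all of whose components for a norming family are
holomorphic is holomorphic -/
theorem diffAt_of_norming [CompleteSpace X] {ι : Type*} {Y : ι → Type*}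
    [∀ i, NormedAddCommGroup (Y i)] [∀ i, NormedSpace ℂ (Y i)] (Φ : ∀ i, X →L[ℂ] Y i)
    (h1 : ∀ i v, ‖Φ i v‖ ≤ ‖v‖) (hn : ∀ v c, 0 ≤ c → (∀ i, ‖Φ i v‖ ≤ c) → ‖v‖ ≤ c)
    {f : E → X} {c : E} {r M : ℝ} (hr : 0 < r) (hM : ∀ z ∈ ball c r, ‖f z‖ ≤ M)
    (hd : ∀ i, DifferentiableOn ℂ (fun z => Φ i (f z)) (ball c r)) : DifferentiableAt ℂ f c := by
  have hM0 : 0 ≤ M := (norm_nonneg _).trans (hM c (mem_ball_self hr))
  set G : ∀ i, E →L[ℂ] Y i := fun i => fderiv ℂ (fun z => Φ i (f z)) c with hG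
  have hb : ∀ i, ∀ z ∈ ball c r, ‖Φ i (f z)‖ ≤ M := fun i z hz => (h1 i _).trans (hM z hz)
  have ht : ∀ i, ∀ z ∈ ball c r,
      ‖Φ i (f z - f c) - G i (z - c)‖ ≤ 4 * M * (‖z - c‖ / r) ^ 2 := by
    intro i z hz
    rw [map_sub]
    exact tay2 (hd i) (hb i) hz
  have hsep : ∀ v w : X, (∀ i, Φ i v = Φ i w) → v = w := by
    intro v w h
    have := hn (v - w) 0 le_rfl (fun i => by rw [map_sub, h i]; simp)
    exact sub_eq_zero.1 (norm_le_zero_iff.1 this)
  have hex : ∀ h : E, ∃ d : X, ∀ i, Φ i d = G i h := by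
    intro h
    obtain ⟨δ, hδ, hδr⟩ : ∃ δ : ℝ, 0 < δ ∧ δ * ‖h‖ < r := by
      refine ⟨r / (‖h‖ + 1), by positivity, ?_⟩
      rw [div_mul_eq_mul_div, div_lt_iff₀ (by positivity)]
      nlinarith
    set t : ℕ → ℝ := fun n => δ / ((n : ℝ) + 1) with htt
    have t0 : ∀ n, 0 < t n := fun n => by positivity
    have t1 : ∀ n, t n ≤ δ := fun n =>
      div_le_self hδ.le (by linarith [(Nat.cast_nonneg n : (0 : ℝ) ≤ n)])
    have tl : Tendsto t atTop (𝓝 0) :=
      tendsto_const_nhds.div_atTop (tendsto_atTop_add_const_right _ _ tendsto_natCast_atTop_atTop)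
    set q : ℕ → X := fun n => ((t n : ℂ))⁻¹ • (f (c + (t n : ℂ) • h) - f c) with hq
    set K : ℝ := 4 * M * (‖h‖ / r) ^ 2 with hK
    have K0 : 0 ≤ K := by positivity
    have he : ∀ n i, ‖Φ i (q n) - G i h‖ ≤ K * t n := by
      intro n i
      have hnn : ‖(t n : ℂ) • h‖ = t n * ‖h‖ := by
        rw [norm_smul, Complex.norm_real, Real.norm_of_nonneg (t0 n).le]
      have hz : c + (t n : ℂ) • h ∈ ball c r := by
        rw [mem_ball, dist_eq_norm, add_sub_cancel_left, hnn]
        exact lt_of_le_of_lt (by gcongr; exact t1 n) hδr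
      have h2 := ht i _ hz
      rw [add_sub_cancel_left, hnn, map_smul] at h2
      have hne : (t n : ℂ) ≠ 0 := by exact_mod_cast (t0 n).ne'
      have : Φ i (q n) - G i h =
          ((t n : ℂ))⁻¹ • (Φ i (f (c + (t n : ℂ) • h) - f c) - (t n : ℂ) • G i h) := by
        rw [smul_sub, smul_smul, inv_mul_cancel₀ hne, one_smul, hq]
        simp only [map_smul]
      rw [this, norm_smul, norm_inv, Complex.norm_real, Real.norm_of_nonneg (t0 n).le,
        inv_mul_le_iff₀ (t0 n)]
      refine h2.trans (le_of_eq ?_)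
      rw [hK]; ring
    have hc : CauchySeq q := by
      refine cauchySeq_of_le_tendsto_0' (fun n => 2 * K * t n) ?_ (by simpa using tl.const_mul (2 * K))
      intro n m hnm
      rw [dist_eq_norm]
      have tm : t m ≤ t n := by
        simp only [htt]
        gcongr
      refine hn _ _ (by have := t0 n; positivity) (fun i => ?_)
      have : Φ i (q n - q m) = (Φ i (q n) - G i h) - (Φ i (q m) - G i h) := by
        rw [map_sub]; abel
      rw [this]
      refine (norm_sub_le _ _).trans ?_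
      have := mul_le_mul_of_nonneg_left tm K0
      linarith [he n i, he m i]
    obtain ⟨d, hdl⟩ := cauchySeq_tendsto_of_complete hc
    refine ⟨d, fun i => ?_⟩
    have a1 : Tendsto (fun n => Φ i (q n)) atTop (𝓝 (Φ i d)) :=
      ((Φ i).continuous.tendsto d).comp hdl
    have a2 : Tendsto (fun n => Φ i (q n)) atTop (𝓝 (G i h)) := by
      rw [tendsto_iff_norm_sub_tendsto_zero]
      exact squeeze_zero (fun _ => norm_nonneg _) (fun n => he n i)
        (by simpa using tl.const_mul K)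
    exact tendsto_nhds_unique a1 a2
  choose D hD using hex
  let Dl : E →ₗ[ℂ] X :=
    { toFun := D
      map_add' := fun a b => hsep _ _ (fun i => by simp [hD])
      map_smul' := fun a b => hsep _ _ (fun i => by simp [hD]) }
  have hDl : ∀ h, ‖Dl h‖ ≤ 2 * M / r * ‖h‖ := by
    intro h
    refine hn _ _ (by positivity) (fun i => ?_)
    change ‖Φ i (D h)‖ ≤ _
    rw [hD]
    exact ((G i).le_opNorm h).trans (by gcongr; exact fd_le hr (hd i) (hb i))
  refine (hasFD_of_sq (K := 4 * M / r ^ 2) hr (Dl.mkContinuous _ hDl) (fun z hz => ?_)).differentiableAt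
  refine hn _ _ (by positivity) (fun i => ?_)
  rw [map_sub]
  change ‖_ - Φ i (D (z - c))‖ ≤ _
  rw [hD]
  refine (ht i z hz).trans (le_of_eq ?_)
  ring

theorem diffOn_of_norming [CompleteSpace X] {ι : Type*} {Y : ι → Type*}
    [∀ i, NormedAddCommGroup (Y i)] [∀ i, NormedSpace ℂ (Y i)] (Φ : ∀ i, X →L[ℂ] Y i)
    (h1 : ∀ i v, ‖Φ i v‖ ≤ ‖v‖) (hn : ∀ v c, 0 ≤ c → (∀ i, ‖Φ i v‖ ≤ c) → ‖v‖ ≤ c)
    {f : E → X} {U : Set E} (hU : IsOpen U) {M : ℝ} (hM : ∀ z ∈ U, ‖f z‖ ≤ M)
    (hd : ∀ i, DifferentiableOn ℂ (fun z => Φ i (f z)) U) : DifferentiableOn ℂ f U := by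
  intro c hc
  obtain ⟨r, hr, hs⟩ := Metric.isOpen_iff.1 hU c hc
  exact (diffAt_of_norming Φ h1 hn hr (fun z hz => hM z (hs hz))
    (fun i => (hd i).mono hs)).differentiableWithinAt

/-- uniform limits of bounded holomorphic maps -/
theorem diffAt_of_lim [CompleteSpace X] {ι : Type*} {l : Filter ι} [l.NeBot] {F : ι → E → X}
    {f : E → X} {c : E} {r M : ℝ} (hr : 0 < r)
    (hF : ∀ᶠ n in l, DifferentiableOn ℂ (F n) (ball c r) ∧ ∀ z ∈ ball c r, ‖F n z‖ ≤ M)
    (hu : TendstoUniformlyOn F f l (ball c r)) : DifferentiableAt ℂ f c := by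
  have hc : Cauchy (l.map fun n => fderiv ℂ (F n) c) := by
    rw [Metric.cauchy_iff]
    refine ⟨inferInstance, fun ε hε => ?_⟩
    have h1 := (Metric.tendstoUniformlyOn_iff.1 hu) (ε * r / 8) (by positivity)
    refine ⟨_, image_mem_map (hF.and h1), ?_⟩
    rintro _ ⟨n, ⟨hn, hn'⟩, rfl⟩ _ ⟨m, ⟨hm, hm'⟩, rfl⟩
    have dn := (hn.1 c (mem_ball_self hr)).differentiableAt (ball_mem_nhds c hr)
    have dm := (hm.1 c (mem_ball_self hr)).differentiableAt (ball_mem_nhds c hr)
    rw [dist_eq_norm, ← fderiv_sub dn dm]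
    have := fd_le (f := F n - F m) (M := ε * r / 4) hr (hn.1.sub hm.1) (fun z hz => by
      have a := hn' z hz
      have b := hm' z hz
      have := dist_triangle_left (F n z) (F m z) (f z)
      rw [Pi.sub_apply, ← dist_eq_norm]
      linarith)
    refine this.trans_lt ?_
    rw [div_lt_iff₀ hr]
    nlinarith [mul_pos hε hr]
  obtain ⟨D, hD⟩ := CompleteSpace.complete hc
  have hD' : Tendsto (fun n => fderiv ℂ (F n) c) l (𝓝 D) := hD
  refine (hasFD_of_sq (K := 4 * M / r ^ 2) hr D (fun z hz => ?_)).differentiableAt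
  have a1 : Tendsto (fun n => ‖F n z - F n c - fderiv ℂ (F n) c (z - c)‖) l
      (𝓝 ‖f z - f c - D (z - c)‖) := by
    refine Tendsto.norm (((hu.tendsto_at hz).sub (hu.tendsto_at (mem_ball_self hr))).sub ?_)
    exact ((ContinuousLinearMap.apply ℂ X (z - c)).continuous.tendsto D).comp hD'
  refine le_of_tendsto a1 ?_
  filter_upwards [hF] with n hn
  refine (tay2 hn.1 hn.2 hz).trans (le_of_eq ?_)
  ring

theorem diffOn_of_lim [CompleteSpace X] {ι : Type*} {l : Filter ι} [l.NeBot] {F : ι → E → X}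
    {f : E → X} {U : Set E} (hU : IsOpen U) {M : ℝ}
    (hF : ∀ᶠ n in l, DifferentiableOn ℂ (F n) U ∧ ∀ z ∈ U, ‖F n z‖ ≤ M)
    (hu : TendstoUniformlyOn F f l U) : DifferentiableOn ℂ f U := by
  intro c hc
  obtain ⟨r, hr, hs⟩ := Metric.isOpen_iff.1 hU c hc
  exact (diffAt_of_lim (M := M) hr
    (hF.mono fun n hn => ⟨hn.1.mono hs, fun z hz => hn.2 z (hs hz)⟩)
    (hu.mono hs)).differentiableWithinAt

/-- the Fréchet derivative of a bounded holomorphic map is holomorphic -/
theorem diffOn_fderiv [CompleteSpace X] {f : E → X} {U : Set E} (hU : IsOpen U) {M : ℝ}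
    (hM : ∀ z ∈ U, ‖f z‖ ≤ M) (hd : DifferentiableOn ℂ f U) :
    DifferentiableOn ℂ (fderiv ℂ f) U := by
  intro c hc
  obtain ⟨r, hr, hs⟩ := Metric.isOpen_iff.1 hU c hc
  have hsub : ∀ z ∈ ball c (r / 2), ball z (r / 2) ⊆ U := fun z hz =>
    (ball_subset_ball' (by rw [mem_ball] at hz; linarith)).trans hs
  have hM0 : 0 ≤ M := (norm_nonneg _).trans (hM c hc)
  refine DifferentiableAt.differentiableWithinAt ?_
  refine diffAt_of_norming (ι := {h : E // ‖h‖ ≤ 1}) (Y := fun _ => X)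
    (fun h => ContinuousLinearMap.apply ℂ X h.1) ?_ ?_ (r := r / 2) (M := 2 * M / (r / 2))
    (by positivity) (fun z hz => fd_le (by positivity) (hd.mono (hsub z hz))
      (fun w hw => hM w (hsub z hz hw))) ?_
  · intro h v
    exact (v.le_opNorm h.1).trans (by have := h.2; have := norm_nonneg v; nlinarith)
  · intro v c' hc' h
    exact ContinuousLinearMap.opNorm_le_of_unit_norm hc' (fun x hx => h ⟨x, hx.le⟩)
  · intro h z hz
    refine DifferentiableAt.differentiableWithinAt ?_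
    -- difference quotients converge uniformly near `z`
    obtain ⟨ρ, hρ, hρs⟩ := Metric.isOpen_iff.1 isOpen_ball z hz
    set t : ℕ → ℝ := fun n => (r / 4) / ((n : ℝ) + 1) with htt
    have t0 : ∀ n, 0 < t n := fun n => by positivity
    have t1 : ∀ n, t n ≤ r / 4 := fun n =>
      div_le_self (by positivity) (by linarith [(Nat.cast_nonneg n : (0 : ℝ) ≤ n)])
    have tl : Tendsto t atTop (𝓝 0) :=
      tendsto_const_nhds.div_atTop (tendsto_atTop_add_const_right _ _ tendsto_natCast_atTop_atTop)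
    have hnn : ∀ n, ‖(t n : ℂ) • h.1‖ ≤ t n := fun n => by
      rw [norm_smul, Complex.norm_real, Real.norm_of_nonneg (t0 n).le]
      have := h.2; have := t0 n; nlinarith
    have hz' : ∀ n, ∀ w ∈ ball z ρ, w + (t n : ℂ) • h.1 ∈ ball w (r / 2) := fun n w _ => by
      rw [mem_ball, dist_eq_norm, add_sub_cancel_left]
      linarith [hnn n, t1 n]
    have he : ∀ n, ∀ w ∈ ball z ρ, ‖((t n : ℂ))⁻¹ • (f (w + (t n : ℂ) • h.1) - f w) -
        fderiv ℂ f w h.1‖ ≤ 4 * M / (r / 2) ^ 2 * t n := by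
      intro n w hw
      have h2 := tay2 (hd.mono (hsub w (hρs hw))) (fun y hy => hM y (hsub w (hρs hw) hy))
        (hz' n w hw)
      rw [add_sub_cancel_left, map_smul] at h2
      have hne : (t n : ℂ) ≠ 0 := by exact_mod_cast (t0 n).ne'
      have : ((t n : ℂ))⁻¹ • (f (w + (t n : ℂ) • h.1) - f w) - fderiv ℂ f w h.1 =
          ((t n : ℂ))⁻¹ • (f (w + (t n : ℂ) • h.1) - f w - (t n : ℂ) • fderiv ℂ f w h.1) := by
        rw [smul_sub _ (_ - _), smul_smul, inv_mul_cancel₀ hne, one_smul]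
      rw [this, norm_smul, norm_inv, Complex.norm_real, Real.norm_of_nonneg (t0 n).le,
        inv_mul_le_iff₀ (t0 n)]
      refine h2.trans ?_
      calc 4 * M * (‖(t n : ℂ) • h.1‖ / (r / 2)) ^ 2 ≤ 4 * M * (t n / (r / 2)) ^ 2 := by
            gcongr; exact hnn n
        _ = _ := by ring
    refine diffAt_of_lim (l := atTop)
      (F := fun n w => ((t n : ℂ))⁻¹ • (f (w + (t n : ℂ) • h.1) - f w))
      (M := 4 * M / (r / 2) ^ 2 * (r / 4) + 2 * M / (r / 2)) hρ (Eventually.of_forall fun n => ⟨?_, ?_⟩) ?_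
    · refine DifferentiableOn.const_smul (DifferentiableOn.sub ?_ ?_) _
      · exact hd.comp (by fun_prop) (fun w hw => hsub w (hρs hw) (hz' n w hw))
      · exact hd.mono (fun w hw => hsub w (hρs hw) (mem_ball_self (by positivity)))
    · intro w hw
      have a := he n w hw
      have b : ‖fderiv ℂ f w h.1‖ ≤ 2 * M / (r / 2) := by
        refine ((fderiv ℂ f w).le_opNorm _).trans ?_
        have := fd_le (by positivity) (hd.mono (hsub w (hρs hw)))
          (fun y hy => hM y (hsub w (hρs hw) hy))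
        have := h.2
        have := norm_nonneg (fderiv ℂ f w)
        nlinarith
      have c1 : 4 * M / (r / 2) ^ 2 * t n ≤ 4 * M / (r / 2) ^ 2 * (r / 4) := by
        gcongr; exact t1 n
      have := norm_le_norm_sub_add (((t n : ℂ))⁻¹ • (f (w + (t n : ℂ) • h.1) - f w))
        (fderiv ℂ f w h.1)
      linarith
    · rw [Metric.tendstoUniformlyOn_iff]
      intro ε hε
      have : Tendsto (fun n => 4 * M / (r / 2) ^ 2 * t n) atTop (𝓝 0) := by
        simpa using tl.const_mul (4 * M / (r / 2) ^ 2)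
      filter_upwards [this.eventually (gt_mem_nhds hε)] with n hn w hw
      rw [dist_comm, dist_eq_norm]
      exact (he n w hw).trans_lt hn

end Crest.Agent.N250.H
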